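import Vale.Agent.P333.Final

namespace Vale.Agent.Results.P333.ATwoApprox

open Vale.Agent.P333

/-- The shortest common superstring problem has a polynomial time `ρ`-approximation for every
`ρ ≥ 2`; in particular `ρ* ≤ 2`. -/
theorem result : (∀ ρ : ℝ, 2 ≤ ρ → HasApproximation ρ) ∧ rhoStar ≤ 2 :=
  final_of_two hasApproximation_two

end Vale.Agent.Results.P333.ATwoApprox
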